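import Vale.Agent.P229.Interface

namespace P229

open Set Real
open scoped ContDiff

theorem A_exists_onb (a b : E3) (B : ℝ) (hB : B ≠ 0) (haa : inner ℝ a a = 1)
    (hab : inner ℝ a b = 0) (hbb : inner ℝ b b = B ^ 2) :
    ∃ N : E3, ∀ v w : E3, inner ℝ v w = inner ℝ v a * inner ℝ a w
      + inner ℝ v b * inner ℝ b w / B ^ 2 + inner ℝ v N * inner ℝ N w := by
  classical
  let v : Fin 3 → E3 := ![a, (1 / B) • b, 0]
  have hba : inner ℝ b a = 0 := by rw [real_inner_comm]; exact hab
  have key : ∀ i j : Fin 3, i = 0 ∨ i = 1 → j = 0 ∨ j = 1 →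
      inner ℝ (v i) (v j) = if i = j then (1 : ℝ) else 0 := by
    intro i j hi2 hj2
    rcases hi2 with rfl | rfl <;> rcases hj2 with rfl | rfl
    · show inner ℝ a a = _
      simpa using haa
    · show inner ℝ a ((1 / B) • b) = _
      rw [inner_smul_right, hab]
      simp
    · show inner ℝ ((1 / B) • b) a = _
      rw [inner_smul_left, hba]
      simp
    · show inner ℝ ((1 / B) • b) ((1 / B) • b) = _
      rw [inner_smul_left, inner_smul_right, hbb, if_pos rfl]
      simp only [conj_trivial]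
      field_simp
  have hon : Orthonormal ℝ (({0, 1} : Set (Fin 3)).domRestrict v) := by
    rw [orthonormal_iff_ite]
    rintro ⟨i, hi⟩ ⟨j, hj⟩
    have hi2 : i = 0 ∨ i = 1 := by simpa using hi
    have hj2 : j = 0 ∨ j = 1 := by simpa using hj
    have h := key i j hi2 hj2
    simp only [Subtype.mk.injEq]
    exact h
  obtain ⟨e, he⟩ := hon.exists_orthonormalBasis_extension_of_card_eq (by simp)
  have h0 : e 0 = a := by
    have := he 0 (by simp)
    simpa [v] using this
  have h1 : e 1 = (1 / B) • b := by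
    have := he 1 (by simp)
    simpa [v] using this
  refine ⟨e 2, fun x w => ?_⟩
  have h := e.sum_inner_mul_inner x w
  rw [Fin.sum_univ_three, h0, h1, inner_smul_left, inner_smul_right] at h
  rw [← h]
  simp only [conj_trivial]
  field_simp

/-- The algebraic part of the Gauss-Darboux identity. -/
theorem A_alg (a b c d e ν : E3) (B Bx By Bxx : ℝ) (hB : B ≠ 0) (haa : inner ℝ a a = 1)
    (hab : inner ℝ a b = 0) (hbb : inner ℝ b b = B ^ 2)
    (hac : inner ℝ a c = 0) (hbc : inner ℝ b c = 0) (had : inner ℝ a d = 0)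
    (hbd : inner ℝ b d = B * Bx) (hae : inner ℝ a e = -(B * Bx)) (hbe : inner ℝ b e = B * By)
    (hG : inner ℝ c e - inner ℝ d d = -(Bx ^ 2 + B * Bxx)) (hν : ‖ν‖ = 1) :
    inner ℝ ν c * (inner ℝ ν e + B * Bx * inner ℝ ν a - By / B * inner ℝ ν b)
      - (inner ℝ ν d - Bx / B * inner ℝ ν b) ^ 2
    = -B * Bxx * (1 - (inner ℝ ν a ^ 2 + (inner ℝ ν b / B) ^ 2)) := by
  obtain ⟨N, hN⟩ := A_exists_onb a b B hB haa hab hbb
  have sa : inner ℝ a ν = inner ℝ ν a := real_inner_comm _ _
  have sb : inner ℝ b ν = inner ℝ ν b := real_inner_comm _ _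
  have sN : inner ℝ N ν = inner ℝ ν N := real_inner_comm _ _
  have sca : inner ℝ c a = 0 := by rw [real_inner_comm]; exact hac
  have scb : inner ℝ c b = 0 := by rw [real_inner_comm]; exact hbc
  have sda : inner ℝ d a = 0 := by rw [real_inner_comm]; exact had
  have sdb : inner ℝ d b = B * Bx := by rw [real_inner_comm]; exact hbd
  have h1 : (1 : ℝ) = inner ℝ ν a ^ 2 + (inner ℝ ν b / B) ^ 2 + inner ℝ ν N ^ 2 := by
    have h := hN ν ν
    rw [real_inner_self_eq_norm_sq, hν, sa, sb, sN] at h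
    linear_combination h
  have hc := hN ν c
  have hd := hN ν d
  have he := hN ν e
  have hce := hN c e
  have hdd := hN d d
  rw [hac, hbc] at hc
  rw [had, hbd] at hd
  rw [hae, hbe] at he
  rw [sca, scb] at hce
  rw [sda, sdb, had, hbd] at hdd
  have scN : inner ℝ c N = inner ℝ N c := real_inner_comm _ _
  have sdN : inner ℝ d N = inner ℝ N d := real_inner_comm _ _
  rw [scN] at hce
  rw [sdN] at hdd
  have e1 : inner ℝ ν e + B * Bx * inner ℝ ν a - By / B * inner ℝ ν b
      = inner ℝ ν N * inner ℝ N e := by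
    rw [he]
    field_simp
    ring
  have e2 : inner ℝ ν d - Bx / B * inner ℝ ν b = inner ℝ ν N * inner ℝ N d := by
    rw [hd]
    field_simp
    ring
  rw [e1, e2, hc]
  have e3 : 1 - (inner ℝ ν a ^ 2 + (inner ℝ ν b / B) ^ 2) = inner ℝ ν N ^ 2 := by linarith
  rw [e3]
  have e4 : inner ℝ N c * inner ℝ N e - inner ℝ N d ^ 2 = -(B * Bxx) := by
    have h5 : B * Bx * (B * Bx) / B ^ 2 = Bx ^ 2 := by
      field_simp
    rw [h5] at hdd
    linear_combination hG - hce + hdd
  have e5 : inner ℝ ν a * 0 + inner ℝ ν b * 0 / B ^ 2 + inner ℝ ν N * inner ℝ N c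
      = inner ℝ ν N * inner ℝ N c := by simp
  rw [e5]
  linear_combination (inner ℝ ν N) ^ 2 * e4

end P229
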