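import Vale.Agent.P229.A.Alg

namespace P229

open Set Real Filter Topology
open scoped ContDiff

noncomputable section

/-- partial derivative in the first variable, for maps on `ℝ × ℝ`. -/
def PX (f : ℝ × ℝ → E3) (q : ℝ × ℝ) : E3 := fderiv ℝ f q (1, 0)

/-- partial derivative in the second variable, for maps on `ℝ × ℝ`. -/
def PY (f : ℝ × ℝ → E3) (q : ℝ × ℝ) : E3 := fderiv ℝ f q (0, 1)

theorem A_smooth_PX {S : Set (ℝ × ℝ)} (hS : IsOpen S) {f : ℝ × ℝ → E3}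
    (hf : ContDiffOn ℝ ∞ f S) : ContDiffOn ℝ ∞ (PX f) S :=
  (hf.fderiv_of_isOpen hS (by simp)).clm_apply contDiffOn_const

theorem A_smooth_PY {S : Set (ℝ × ℝ)} (hS : IsOpen S) {f : ℝ × ℝ → E3}
    (hf : ContDiffOn ℝ ∞ f S) : ContDiffOn ℝ ∞ (PY f) S :=
  (hf.fderiv_of_isOpen hS (by simp)).clm_apply contDiffOn_const

theorem A_diff {S : Set (ℝ × ℝ)} (hS : IsOpen S) {f : ℝ × ℝ → E3}
    (hf : ContDiffOn ℝ ∞ f S) {q : ℝ × ℝ} (hq : q ∈ S) : DifferentiableAt ℝ f q :=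
  (hf.differentiableOn (by simp)).differentiableAt (hS.mem_nhds hq)

theorem A_symm {S : Set (ℝ × ℝ)} (hS : IsOpen S) {f : ℝ × ℝ → E3}
    (hf : ContDiffOn ℝ ∞ f S) {q : ℝ × ℝ} (hq : q ∈ S) : PX (PY f) q = PY (PX f) q := by
  have h1 : ContDiffAt ℝ ∞ f q := hf.contDiffAt (hS.mem_nhds hq)
  have h2 : DifferentiableAt ℝ (fderiv ℝ f) q :=
    ((hf.fderiv_of_isOpen hS (m := ∞) (by simp)).differentiableOn (by simp)).differentiableAt
      (hS.mem_nhds hq)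
  have h3 : ∀ v w : ℝ × ℝ, fderiv ℝ (fun q => fderiv ℝ f q v) q w = fderiv ℝ (fderiv ℝ f) q w v := by
    intro v w
    rw [fderiv_clm_apply h2 (differentiableAt_const v)]
    simp
  unfold PX PY
  rw [h3, h3]
  exact (h1.isSymmSndFDerivAt (by simp; exact WithTop.coe_le_coe.mpr le_top)).eq _ _

theorem A_lineX {f : ℝ × ℝ → E3} {x y : ℝ} (hf : DifferentiableAt ℝ f (x, y)) :
    HasDerivAt (fun t => f (t, y)) (PX f (x, y)) x :=
  hf.hasFDerivAt.comp_hasDerivAt x ((hasDerivAt_id x).prodMk (hasDerivAt_const x y))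

theorem A_lineY {f : ℝ × ℝ → E3} {x y : ℝ} (hf : DifferentiableAt ℝ f (x, y)) :
    HasDerivAt (fun t => f (x, t)) (PY f (x, y)) y :=
  hf.hasFDerivAt.comp_hasDerivAt y ((hasDerivAt_const y x).prodMk (hasDerivAt_id y))

theorem A_uniqX {S : Set (ℝ × ℝ)} (hS : IsOpen S) {F G : ℝ × ℝ → ℝ} {x y F' G' : ℝ}
    (hFG : ∀ q ∈ S, F q = G q) (hq : (x, y) ∈ S) (hF : HasDerivAt (fun t => F (t, y)) F' x)
    (hG : HasDerivAt (fun t => G (t, y)) G' x) : F' = G' := by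
  have h1 : ∀ᶠ t in 𝓝 x, (t, y) ∈ S := by
    have hc : Continuous fun t : ℝ => (t, y) := by fun_prop
    exact hc.continuousAt.preimage_mem_nhds (hS.mem_nhds hq)
  have h2 : (fun t => G (t, y)) =ᶠ[𝓝 x] fun t => F (t, y) := by
    filter_upwards [h1] with t ht
    exact (hFG _ ht).symm
  exact (hF.congr_of_eventuallyEq h2).unique hG

theorem A_uniqY {S : Set (ℝ × ℝ)} (hS : IsOpen S) {F G : ℝ × ℝ → ℝ} {x y F' G' : ℝ}
    (hFG : ∀ q ∈ S, F q = G q) (hq : (x, y) ∈ S) (hF : HasDerivAt (fun t => F (x, t)) F' y)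
    (hG : HasDerivAt (fun t => G (x, t)) G' y) : F' = G' := by
  have h1 : ∀ᶠ t in 𝓝 y, (x, t) ∈ S := by
    have hc : Continuous fun t : ℝ => (x, t) := by fun_prop
    exact hc.continuousAt.preimage_mem_nhds (hS.mem_nhds hq)
  have h2 : (fun t => G (x, t)) =ᶠ[𝓝 y] fun t => F (x, t) := by
    filter_upwards [h1] with t ht
    exact (hFG _ ht).symm
  exact (hF.congr_of_eventuallyEq h2).unique hG

/-- Gauss-Darboux identity in coordinates with metric `dx^2 + B^2 dy^2`. -/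
theorem A_darboux {S : Set (ℝ × ℝ)} (hS : IsOpen S) {Φ : ℝ × ℝ → E3}
    (hΦ : ContDiffOn ℝ ∞ Φ S) (B BX : ℝ → ℝ → ℝ) (BY BXX : ℝ)
    (h11 : ∀ q ∈ S, inner ℝ (PX Φ q) (PX Φ q) = 1)
    (h12 : ∀ q ∈ S, inner ℝ (PX Φ q) (PY Φ q) = 0)
    (h22 : ∀ q ∈ S, inner ℝ (PY Φ q) (PY Φ q) = B q.1 q.2 ^ 2)
    {x y : ℝ} (hxy : (x, y) ∈ S)
    (hBX : ∀ x y : ℝ, (x, y) ∈ S → HasDerivAt (fun t => B t y) (BX x y) x)
    (hBY : HasDerivAt (fun t => B x t) BY y) (hBXX : HasDerivAt (fun t => BX t y) BXX x)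
    (hB : ∀ x y : ℝ, (x, y) ∈ S → B x y ≠ 0) {ν : E3} (hν : ‖ν‖ = 1) :
    inner ℝ ν (PX (PX Φ) (x, y)) * (inner ℝ ν (PY (PY Φ) (x, y))
        + B x y * BX x y * inner ℝ ν (PX Φ (x, y)) - BY / B x y * inner ℝ ν (PY Φ (x, y)))
      - (inner ℝ ν (PY (PX Φ) (x, y)) - BX x y / B x y * inner ℝ ν (PY Φ (x, y))) ^ 2
    = -B x y * BXX * (1 - (inner ℝ ν (PX Φ (x, y)) ^ 2
        + (inner ℝ ν (PY Φ (x, y)) / B x y) ^ 2)) := by
  have sX := A_smooth_PX hS hΦ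
  have sY := A_smooth_PY hS hΦ
  have sXX := A_smooth_PX hS sX
  have sYX := A_smooth_PY hS sX
  -- first order identities on `S`
  have k1 : ∀ q ∈ S, inner ℝ (PX Φ q) (PX (PX Φ) q) = 0 := by
    rintro ⟨x, y⟩ hq
    have hd := A_lineX (A_diff hS sX hq)
    have h := A_uniqX hS (F := fun q => inner ℝ (PX Φ q) (PX Φ q)) (G := fun _ => 1) h11 hq
      (hd.inner ℝ hd) (hasDerivAt_const x 1)
    rw [real_inner_comm (PX Φ (x, y)) (PX (PX Φ) (x, y))] at h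
    linarith
  have k2 : ∀ q ∈ S, inner ℝ (PX Φ q) (PY (PX Φ) q) = 0 := by
    rintro ⟨x, y⟩ hq
    have hd := A_lineY (A_diff hS sX hq)
    have h := A_uniqY hS (F := fun q => inner ℝ (PX Φ q) (PX Φ q)) (G := fun _ => 1) h11 hq
      (hd.inner ℝ hd) (hasDerivAt_const y 1)
    rw [real_inner_comm (PX Φ (x, y)) (PY (PX Φ) (x, y))] at h
    linarith
  have k3 : ∀ q ∈ S, inner ℝ (PY Φ q) (PX (PX Φ) q) = 0 := by
    rintro ⟨x, y⟩ hq
    have hd := A_lineX (A_diff hS sX hq)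
    have he := A_lineX (A_diff hS sY hq)
    have h := A_uniqX hS (F := fun q => inner ℝ (PX Φ q) (PY Φ q)) (G := fun _ => 0) h12 hq
      (hd.inner ℝ he) (hasDerivAt_const x 0)
    rw [A_symm hS hΦ hq] at h
    have h2 := k2 _ hq
    rw [real_inner_comm]
    linarith
  have k4 : ∀ q ∈ S, inner ℝ (PX Φ q) (PY (PY Φ) q) = -inner ℝ (PY Φ q) (PY (PX Φ) q) := by
    rintro ⟨x, y⟩ hq
    have hd := A_lineY (A_diff hS sX hq)
    have he := A_lineY (A_diff hS sY hq)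
    have h := A_uniqY hS (F := fun q => inner ℝ (PX Φ q) (PY Φ q)) (G := fun _ => 0) h12 hq
      (hd.inner ℝ he) (hasDerivAt_const y 0)
    rw [real_inner_comm (PY Φ (x, y)) (PY (PX Φ) (x, y))] at h
    linarith
  have k5 : ∀ q ∈ S, inner ℝ (PY Φ q) (PY (PX Φ) q) = B q.1 q.2 * BX q.1 q.2 := by
    rintro ⟨x, y⟩ hq
    have he := A_lineX (A_diff hS sY hq)
    have h := A_uniqX hS (F := fun q => inner ℝ (PY Φ q) (PY Φ q))
      (G := fun q => B q.1 q.2 ^ 2) h22 hq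
      (he.inner ℝ he) ((hBX x y hq).pow 2)
    rw [A_symm hS hΦ hq, real_inner_comm (PY Φ (x, y)) (PY (PX Φ) (x, y))] at h
    norm_num at h
    linarith
  have k6 : inner ℝ (PY Φ (x, y)) (PY (PY Φ) (x, y)) = B x y * BY := by
    have he := A_lineY (A_diff hS sY hxy)
    have h := A_uniqY hS (F := fun q => inner ℝ (PY Φ q) (PY Φ q))
      (G := fun q => B q.1 q.2 ^ 2) h22 hxy
      (he.inner ℝ he) (hBY.pow 2)
    rw [real_inner_comm (PY Φ (x, y)) (PY (PY Φ) (x, y))] at h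
    norm_num at h
    linarith
  -- second order
  have k7 : inner ℝ (PY Φ (x, y)) (PY (PX (PX Φ)) (x, y))
      + inner ℝ (PY (PY Φ) (x, y)) (PX (PX Φ) (x, y)) = 0 := by
    have he := A_lineY (A_diff hS sY hxy)
    have hf := A_lineY (A_diff hS sXX hxy)
    exact A_uniqY hS (F := fun q => inner ℝ (PY Φ q) (PX (PX Φ) q)) (G := fun _ => 0) k3 hxy
      (he.inner ℝ hf) (hasDerivAt_const y 0)
  have k8 : inner ℝ (PY Φ (x, y)) (PX (PY (PX Φ)) (x, y))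
      + inner ℝ (PX (PY Φ) (x, y)) (PY (PX Φ) (x, y)) = BX x y * BX x y + B x y * BXX := by
    have he := A_lineX (A_diff hS sY hxy)
    have hf := A_lineX (A_diff hS sYX hxy)
    exact A_uniqX hS (F := fun q => inner ℝ (PY Φ q) (PY (PX Φ) q))
      (G := fun q => B q.1 q.2 * BX q.1 q.2) k5 hxy
      (he.inner ℝ hf) ((hBX x y hxy).mul hBXX)
  rw [A_symm hS hΦ hxy, A_symm hS sX hxy] at k8
  have hk4 := k4 _ hxy
  have hk5 := k5 _ hxy
  rw [hk5] at hk4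
  refine A_alg (PX Φ (x, y)) (PY Φ (x, y)) (PX (PX Φ) (x, y)) (PY (PX Φ) (x, y))
    (PY (PY Φ) (x, y)) ν (B x y) (BX x y) BY BXX (hB x y hxy) (h11 _ hxy) (h12 _ hxy)
    (h22 _ hxy) (k1 _ hxy) (k3 _ hxy) (k2 _ hxy) hk5 hk4 k6 ?_ hν
  rw [real_inner_comm (PX (PX Φ) (x, y)) (PY (PY Φ) (x, y))] at k7
  linarith

end

end P229
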