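import Vale.Agent.P229.A.Prof

namespace P229

open Set Real Filter Topology
open scoped ContDiff

noncomputable section

def A_B (P : Par) (X Y : ℝ) : ℝ :=
  1 + P.r ^ 2 * (b0 P (X / P.r) (Y / P.r) + bb P (X / P.r) (Y / P.r))

def A_BX (P : Par) (X Y : ℝ) : ℝ :=
  P.r * (b0x P (X / P.r) (Y / P.r) + bbx P (X / P.r) (Y / P.r))

def A_BY (P : Par) (X Y : ℝ) : ℝ :=
  P.r * (b0y P (X / P.r) (Y / P.r) + bby P (X / P.r) (Y / P.r))

def A_BXX (P : Par) (X Y : ℝ) : ℝ :=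
  b0xx P (X / P.r) (Y / P.r) + bbxx P (X / P.r) (Y / P.r)

theorem A_div_deriv (r x : ℝ) : HasDerivAt (fun t : ℝ => t / r) (1 / r) x :=
  (hasDerivAt_id x).div_const r

theorem A_B_x (P : Par) (hr : P.r ≠ 0) (hl : P.lam ≠ 0) (x y : ℝ) :
    HasDerivAt (fun t => A_B P t y) (A_BX P x y) x := by
  unfold A_B A_BX
  have h1 := (A_b0_x P (x / P.r) (y / P.r)).comp x (A_div_deriv P.r x)
  have h2 := (A_bb_x P hl (x / P.r) (y / P.r)).comp x (A_div_deriv P.r x)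
  have h := ((h1.add h2).const_mul (P.r ^ 2)).const_add 1
  refine h.congr_deriv ?_
  field_simp

theorem A_B_y (P : Par) (hr : P.r ≠ 0) (hl : P.lam ≠ 0) (x y : ℝ) :
    HasDerivAt (fun t => A_B P x t) (A_BY P x y) y := by
  unfold A_B A_BY
  have h1 := (A_b0_y P (x / P.r) (y / P.r)).comp y (A_div_deriv P.r y)
  have h2 := (A_bb_y P hl (x / P.r) (y / P.r)).comp y (A_div_deriv P.r y)
  have h := ((h1.add h2).const_mul (P.r ^ 2)).const_add 1
  refine h.congr_deriv ?_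
  field_simp

theorem A_B_xx (P : Par) (hr : P.r ≠ 0) (hl : P.lam ≠ 0) (x y : ℝ) :
    HasDerivAt (fun t => A_BX P t y) (A_BXX P x y) x := by
  unfold A_BX A_BXX
  have h1 := (A_b0_xx P (x / P.r) (y / P.r)).comp x (A_div_deriv P.r x)
  have h2 := (A_bb_xx P hl (x / P.r) (y / P.r)).comp x (A_div_deriv P.r x)
  have h := (h1.add h2).const_mul P.r
  refine h.congr_deriv ?_
  field_simp

theorem A_Bgad (P : Par) (hr : 0 < P.r) {X Y : ℝ} (hX : |X| < 3 / 2 * P.r) :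
    Bgad P X Y = A_B P X Y := by
  have h : |X / P.r| < 3 / 2 := by
    rw [abs_div, abs_of_pos hr, div_lt_iff₀ hr]
    exact hX
  unfold Bgad Bu beta A_B
  rw [A_cut_one h, one_mul]

theorem A_mem {r x y : ℝ} (hr : 0 < r) (hx : |x| < 3) (hy : |y| < 3) :
    (r * x, r * y) ∈ Metric.ball (0 : ℝ × ℝ) (3 * r) := by
  rw [mem_ball_zero_iff, Prod.norm_def, max_lt_iff, Real.norm_eq_abs, Real.norm_eq_abs]
  simp only [abs_mul, abs_of_pos hr]
  constructor <;> nlinarith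

theorem blockA : BlockA := by
  intro C0 k b hC0 hk hb
  refine ⟨C0 ^ 2, 1 / 2, by nlinarith, by norm_num, ?_⟩
  intro r hr hr1 Φ hΦ
  obtain ⟨ν, hν, hνx, hνy, hκ, hκ2⟩ := hΦ.second
  have hC0' : (0 : ℝ) < C0 := by linarith
  set P : Par := ⟨r, k, b⟩ with hP
  have hPr : P.r = r := rfl
  have hlam : P.lam ≠ 0 := by
    show r ^ (10 * k + 2) ≠ 0
    exact pow_ne_zero _ hr.ne'
  set S := Metric.ball (0 : ℝ × ℝ) (3 * r) with hS
  have hSo : IsOpen S := Metric.isOpen_ball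
  have hsm : ContDiffOn ℝ ∞ Φ S := hΦ.smooth
  have h0S : (0 : ℝ × ℝ) ∈ S := by
    rw [hS]
    exact Metric.mem_ball_self (by linarith)
  have hbd : ∀ n : ℕ, n ≤ 4 → ∀ q ∈ S, ‖iteratedFDeriv ℝ n Φ q‖ ≤ C0 := hΦ.bound
  have sX := A_smooth_PX hSo hsm
  have sY := A_smooth_PY hSo hsm
  have sXX := A_smooth_PX hSo sX
  have sYX := A_smooth_PY hSo sX
  have sXXX := A_smooth_PX hSo sXX
  have sYXX := A_smooth_PY hSo sXX
  have i0 := AIter.zero S Φ
  have iX := i0.PX hSo hsm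
  have iY := i0.PY hSo hsm
  have iXX := iX.PX hSo hsm
  have iYX := iX.PY hSo hsm
  have iYY := iY.PY hSo hsm
  have iXXX := iXX.PX hSo hsm
  have iYXX := iXX.PY hSo hsm
  have iYYX := iYX.PY hSo hsm
  have iXXXX := iXXX.PX hSo hsm
  have iYXXX := iXXX.PY hSo hsm
  have iYYXX := iYXX.PY hSo hsm
  obtain ⟨κ, hκdef⟩ : ∃ κ : ℝ, κ = inner ℝ ν (PX (PX Φ) 0) := ⟨_, rfl⟩
  have hκ1 : 1 / C0 ≤ κ := by rw [hκdef]; exact hκ
  have hκpos : 0 < κ := lt_of_lt_of_le (by positivity) hκ1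
  have hκle : κ ≤ C0 := by
    rw [hκdef]
    exact (le_abs_self _).trans (iXX.bound (hbd 2 (by norm_num)) h0S hν)
  have hκinv : 1 / κ ≤ C0 := by
    rw [div_le_iff₀ hκpos]
    rw [div_le_iff₀ hC0'] at hκ1
    linarith
  let z : ℝ → ℝ → ℝ := fun x y =>
    1 / (r ^ 2 * κ) * inner ℝ ν (Φ (r * x, r * y)) + (-(1 / (r ^ 2 * κ) * inner ℝ ν (Φ 0)))
  have R0 : ARep S r ν Φ (1 / (r ^ 2 * κ)) (-(1 / (r ^ 2 * κ) * inner ℝ ν (Φ 0))) z :=
    fun x y _ => rfl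
  have Rx := A_rep_dx hSo hsm R0
  have Ry := A_rep_dy hSo hsm R0
  have Rxx := A_rep_dx hSo sX Rx
  have Ryx := A_rep_dy hSo sX Rx
  have Ryy := A_rep_dy hSo sY Ry
  have Rxxx := A_rep_dx hSo sXX Rxx
  have Ryxx := A_rep_dy hSo sXX Rxx
  have Ryyx := A_rep_dy hSo sYX Ryx
  have Rxxxx := A_rep_dx hSo sXXX Rxxx
  have Ryxxx := A_rep_dy hSo sXXX Rxxx
  have Ryyxx := A_rep_dy hSo sYXX Ryxx
  have c1 : 1 / (r ^ 2 * κ) * r = 1 / (r * κ) := by field_simp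
  have c2 : 1 / (r ^ 2 * κ) * r * r = 1 / κ := by field_simp
  have c3 : 1 / (r ^ 2 * κ) * r * r * r = 1 / κ * r := by rw [c2]
  have c4 : 1 / (r ^ 2 * κ) * r * r * r * r = 1 / κ * r ^ 2 := by rw [c2]; ring
  rw [c4] at Rxxxx Ryxxx Ryyxx
  rw [c3] at Rxxx Ryxx Ryyx
  rw [c2] at Rxx Ryx Ryy
  rw [c1] at Rx Ry
  have e0 : ((r * 0, r * 0) : ℝ × ℝ) = 0 := by simp
  have m0 : ((r * 0, r * 0) : ℝ × ℝ) ∈ S := by rw [e0]; exact h0S
  have gb : ∀ (n : ℕ) (g : ℝ × ℝ → E3) (c C : ℝ) (f : ℝ → ℝ → ℝ), n ≤ 4 → AIter S Φ n g →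
      ARep S r ν g c 0 f → 0 ≤ c → c * C0 ≤ C → ∀ x y : ℝ, |x| < 17 / 10 → |y| < 22 / 10 →
      |f x y| ≤ C := by
    intro n g c C f hn hi hrep hc hC x y hx hy
    have hm : (r * x, r * y) ∈ S := A_mem hr (by linarith) (by linarith)
    rw [hrep x y hm, add_zero, abs_mul, abs_of_nonneg hc]
    exact (mul_le_mul_of_nonneg_left (hi.bound (hbd n hn) hm hν) hc).trans hC
  have hk0 : 0 ≤ 1 / κ := by positivity
  have b2 : 1 / κ * C0 ≤ C0 ^ 2 := by nlinarith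
  have b3 : 1 / κ * r * C0 ≤ C0 ^ 2 * r := by nlinarith
  have b4 : 1 / κ * r ^ 2 * C0 ≤ C0 ^ 2 * r := by
    have h1 : 1 / κ * r ^ 2 * C0 = (1 / κ * C0) * r ^ 2 := by ring
    rw [h1]
    have h2 : r ^ 2 ≤ r := by nlinarith
    have h3 : 0 ≤ 1 / κ * C0 := by positivity
    nlinarith
  refine ⟨1 / κ ^ 2, z, ?_, ?_, ?_⟩
  · exact one_div_le_one_div_of_le (by positivity) (by nlinarith)
  · have : 1 / κ ^ 2 = (1 / κ) ^ 2 := by ring
    rw [this]
    nlinarith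
  refine ⟨?_, ?_, ?_, ?_, ?_, ?_, ?_, ?_, ?_, ?_, ?_, ?_, ?_, ?_⟩
  · -- smooth
    have hmap : MapsTo (fun w : ℝ × ℝ => (r * w.1, r * w.2))
        (Ioo (-(17 / 10) : ℝ) (17 / 10) ×ˢ Ioo (-(22 / 10) : ℝ) (22 / 10)) S := by
      rintro ⟨x, y⟩ ⟨hx, hy⟩
      refine A_mem hr ?_ ?_
      · rw [abs_lt]
        constructor <;> [have := hx.1; have := hx.2] <;> simp only at this <;> linarith
      · rw [abs_lt]
        constructor <;> [have := hy.1; have := hy.2] <;> simp only at this <;> linarith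
    have h1 : ContDiffOn ℝ ∞ (fun w : ℝ × ℝ => Φ (r * w.1, r * w.2))
        (Ioo (-(17 / 10) : ℝ) (17 / 10) ×ˢ Ioo (-(22 / 10) : ℝ) (22 / 10)) :=
      hsm.comp (by fun_prop) hmap
    have h2 : ContDiffOn ℝ ∞ (fun w : ℝ × ℝ => inner ℝ ν (Φ (r * w.1, r * w.2)))
        (Ioo (-(17 / 10) : ℝ) (17 / 10) ×ˢ Ioo (-(22 / 10) : ℝ) (22 / 10)) :=
      contDiffOn_const.inner ℝ h1
    exact (contDiffOn_const.mul h2).add contDiffOn_const
  · show 1 / (r ^ 2 * κ) * inner ℝ ν (Φ (r * 0, r * 0)) + _ = 0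
    rw [e0]
    ring
  · rw [Rx 0 0 m0, e0]
    have : inner ℝ ν (PX Φ 0) = 0 := hνx
    rw [this]
    ring
  · rw [Ry 0 0 m0, e0]
    have : inner ℝ ν (PY Φ 0) = 0 := hνy
    rw [this]
    ring
  · rw [Rxx 0 0 m0, e0, ← hκdef]
    field_simp
    simp
  · rw [Ryx 0 0 m0, e0, add_zero, abs_mul, abs_of_pos (by positivity : 0 < 1 / κ)]
    have h1 : |inner ℝ ν (PY (PX Φ) 0)| ≤ 1 / 100 * κ := by rw [hκdef]; exact hκ2
    calc 1 / κ * |inner ℝ ν (PY (PX Φ) 0)| ≤ 1 / κ * (1 / 100 * κ) :=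
          mul_le_mul_of_nonneg_left h1 hk0
      _ = 1 / 100 := by field_simp
  · exact gb 2 _ _ _ _ (by norm_num) iYY Ryy hk0 b2
  · exact gb 3 _ _ _ _ (by norm_num) iXXX Rxxx (by positivity) b3
  · exact gb 3 _ _ _ _ (by norm_num) iYXX Ryxx (by positivity) b3
  · exact gb 3 _ _ _ _ (by norm_num) iYYX Ryyx (by positivity) b3
  · exact gb 4 _ _ _ _ (by norm_num) iXXXX Rxxxx (by positivity) b4
  · exact gb 4 _ _ _ _ (by norm_num) iYXXX Ryxxx (by positivity) b4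
  · exact gb 4 _ _ _ _ (by norm_num) iYYXX Ryyxx (by positivity) b4
  · -- the Darboux equation
    intro x y hx hy
    have hm : (r * x, r * y) ∈ S := A_mem hr (by linarith) (by linarith)
    let S1 : Set (ℝ × ℝ) := S ∩ {q | |q.1| < 3 / 2 * r}
    have hS1o : IsOpen S1 := hSo.inter (isOpen_lt (by fun_prop) (by fun_prop))
    have hm1 : (r * x, r * y) ∈ S1 := by
      refine ⟨hm, ?_⟩
      show |r * x| < 3 / 2 * r
      rw [abs_mul, abs_of_pos hr]
      nlinarith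
    have hsub : S1 ⊆ S := inter_subset_left
    have hBpos : ∀ X Y : ℝ, (X, Y) ∈ S1 → 0 < A_B P X Y := by
      intro X Y h
      have h2 : |X| < 3 / 2 * r := h.2
      refine A_B_pos P hr hr1.le _ ?_
      rw [abs_div, hPr, abs_of_pos hr, div_lt_iff₀ hr]
      exact h2
    have main := A_darboux hS1o (hsm.mono hsub) (A_B P) (A_BX P) (A_BY P (r * x) (r * y))
      (A_BXX P (r * x) (r * y)) (fun q hq => hΦ.iso11 q hq.1) (fun q hq => hΦ.iso12 q hq.1)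
      (fun q hq => by rw [← A_Bgad P hr hq.2]; exact hΦ.iso22 q hq.1) hm1
      (fun X Y _ => A_B_x P hr.ne' hlam X Y) (A_B_y P hr.ne' hlam _ _)
      (A_B_xx P hr.ne' hlam _ _) (fun X Y h => (hBpos X Y h).ne') hν
    have q1 : r * x / r = x := by field_simp
    have q2 : r * y / r = y := by field_simp
    have f1 : inner ℝ ν (PX Φ (r * x, r * y)) = r * κ * dx z x y := by
      rw [Rx x y hm]; field_simp; ring
    have f2 : inner ℝ ν (PY Φ (r * x, r * y)) = r * κ * dy z x y := by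
      rw [Ry x y hm]; field_simp; ring
    have f3 : inner ℝ ν (PX (PX Φ) (r * x, r * y)) = κ * dx (dx z) x y := by
      rw [Rxx x y hm]; field_simp; ring
    have f4 : inner ℝ ν (PY (PX Φ) (r * x, r * y)) = κ * dy (dx z) x y := by
      rw [Ryx x y hm]; field_simp; ring
    have f5 : inner ℝ ν (PY (PY Φ) (r * x, r * y)) = κ * dy (dy z) x y := by
      rw [Ryy x y hm]; field_simp; ring
    have hB := (hBpos _ _ hm1).ne'
    rw [f1, f2, f3, f4, f5] at main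
    unfold A_B A_BX A_BY A_BXX at main
    unfold A_B at hB
    rw [hPr, q1, q2] at main hB
    rw [hPr]
    generalize dx z x y = zx at main ⊢
    generalize dy z x y = zy at main ⊢
    generalize dx (dx z) x y = zxx at main ⊢
    generalize dy (dx z) x y = zxy at main ⊢
    generalize dy (dy z) x y = zyy at main ⊢
    generalize b0xx P x y + bbxx P x y = bxx at main ⊢
    generalize b0x P x y + bbx P x y = bx at main ⊢
    generalize b0y P x y + bby P x y = by' at main ⊢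
    generalize 1 + r ^ 2 * (b0 P x y + bb P x y) = B at main hB ⊢
    have hκ0 : κ ≠ 0 := hκpos.ne'
    have hk2 : κ ^ 2 ≠ 0 := pow_ne_zero _ hκ0
    apply mul_left_cancel₀ hk2
    have L : κ ^ 2 * (zxx * (zyy + B * (r ^ 2 * bx) * zx - r ^ 2 * by' / B * zy)
        - (zxy - r ^ 2 * bx / B * zy) ^ 2)
        = κ * zxx * (κ * zyy + B * (r * bx) * (r * κ * zx) - r * by' / B * (r * κ * zy))
          - (κ * zxy - r * bx / B * (r * κ * zy)) ^ 2 := by
      field_simp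
    rw [L, main]
    field_simp

end

end P229
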