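import Vale.Agent.P229.A.Rep

namespace P229

open Set Real Filter Topology
open scoped ContDiff

noncomputable section

theorem A_kk_smooth : ContDiff ℝ ∞ kk := by
  unfold kk
  exact (Real.smoothTransition.contDiff.comp (by fun_prop)).mul
    (Real.smoothTransition.contDiff.comp (by fun_prop))

theorem A_chi1_smooth : ContDiff ℝ ∞ chi1 := by
  unfold chi1
  exact (Real.smoothTransition.contDiff.comp (by fun_prop)).mul
    (Real.smoothTransition.contDiff.comp (by fun_prop))

theorem A_chi_smooth : ContDiff ℝ ∞ chi := by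
  unfold chi
  exact A_chi1_smooth.add (A_chi1_smooth.comp (by fun_prop))

theorem A_kk_nonneg (y : ℝ) : 0 ≤ kk y :=
  mul_nonneg (Real.smoothTransition.nonneg _) (Real.smoothTransition.nonneg _)

theorem A_chi1_nonneg (y : ℝ) : 0 ≤ chi1 y :=
  mul_nonneg (Real.smoothTransition.nonneg _) (Real.smoothTransition.nonneg _)

theorem A_chi1_le (y : ℝ) : chi1 y ≤ 1 :=
  mul_le_one₀ (Real.smoothTransition.le_one _) (Real.smoothTransition.nonneg _)
    (Real.smoothTransition.le_one _)

theorem A_chi_nonneg (y : ℝ) : 0 ≤ chi y := add_nonneg (A_chi1_nonneg _) (A_chi1_nonneg _)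

theorem A_chi_le (y : ℝ) : chi y ≤ 2 := by
  unfold chi
  linarith [A_chi1_le y, A_chi1_le (-y)]

theorem A_cut_one {x : ℝ} (hx : |x| < 3 / 2) : cut x = 1 := by
  have h := abs_lt.1 hx
  unfold cut
  rw [Real.smoothTransition.one_of_one_le (by linarith [h.2]),
    Real.smoothTransition.one_of_one_le (by linarith [h.1]), one_mul]

theorem A_kk_deriv (y : ℝ) : HasDerivAt kk (deriv kk y) y :=
  ((A_kk_smooth.differentiable (by simp)) y).hasDerivAt

theorem A_kk_deriv2 (y : ℝ) : HasDerivAt (deriv kk) (deriv (deriv kk) y) y := by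
  have h : ContDiff ℝ ∞ (deriv kk) := (contDiff_infty_iff_deriv.1 A_kk_smooth).2
  exact ((h.differentiable (by simp)) y).hasDerivAt

theorem A_chi_deriv (y : ℝ) : HasDerivAt chi (deriv chi y) y :=
  ((A_chi_smooth.differentiable (by simp)) y).hasDerivAt

theorem A_b0_x (P : Par) (x y : ℝ) : HasDerivAt (fun t => b0 P t y) (b0x P x y) x := by
  unfold b0 b0x
  have h2 : HasDerivAt (fun t : ℝ => t ^ 2) (2 * x) x := by simpa using hasDerivAt_pow 2 x
  have h4 : HasDerivAt (fun t : ℝ => t ^ 4) (4 * x ^ 3) x := by simpa using hasDerivAt_pow 4 x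
  have h := (((h2.const_mul (P.eps * chi y)).div_const 2).neg).add
    (((h2.div_const 2).sub (h4.div_const 12)).const_mul (P.epsc * kk y))
  refine h.congr_deriv ?_
  ring

theorem A_b0_xx (P : Par) (x y : ℝ) : HasDerivAt (fun t => b0x P t y) (b0xx P x y) x := by
  unfold b0x b0xx
  have h1 : HasDerivAt (fun t : ℝ => t) 1 x := hasDerivAt_id x
  have h3 : HasDerivAt (fun t : ℝ => t ^ 3) (3 * x ^ 2) x := by simpa using hasDerivAt_pow 3 x
  have h := ((h1.const_mul (P.eps * chi y)).neg).add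
    ((h1.sub (h3.div_const 3)).const_mul (P.epsc * kk y))
  refine h.congr_deriv ?_
  ring

theorem A_b0_y (P : Par) (x y : ℝ) : HasDerivAt (fun t => b0 P x t) (b0y P x y) y := by
  unfold b0 b0y
  have h := (((((A_chi_deriv y).const_mul P.eps).mul_const (x ^ 2)).div_const 2).neg).add
    (((A_kk_deriv y).const_mul P.epsc).mul_const (x ^ 2 / 2 - x ^ 4 / 12))
  exact h

theorem A_kk_scale {l : ℝ} (x : ℝ) :
    HasDerivAt (fun t => kk (t / l)) (deriv kk (x / l) * (1 / l)) x := by
  have h1 : HasDerivAt (fun t : ℝ => t / l) (1 / l) x := (hasDerivAt_id x).div_const l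
  exact (A_kk_deriv (x / l)).comp x h1

theorem A_kk_scale2 {l : ℝ} (x : ℝ) :
    HasDerivAt (fun t => deriv kk (t / l)) (deriv (deriv kk) (x / l) * (1 / l)) x := by
  have h1 : HasDerivAt (fun t : ℝ => t / l) (1 / l) x := (hasDerivAt_id x).div_const l
  exact (A_kk_deriv2 (x / l)).comp x h1

theorem A_bb_x (P : Par) (hl : P.lam ≠ 0) (x y : ℝ) :
    HasDerivAt (fun t => bb P t y) (bbx P x y) x := by
  unfold bb bbx
  have h := ((A_kk_scale (l := P.lam) x).const_mul (P.eta * P.epsc * P.lam ^ 2)).mul_const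
    (kk (y / P.lam))
  refine h.congr_deriv ?_
  field_simp

theorem A_bb_xx (P : Par) (hl : P.lam ≠ 0) (x y : ℝ) :
    HasDerivAt (fun t => bbx P t y) (bbxx P x y) x := by
  unfold bbx bbxx
  have h := ((A_kk_scale2 (l := P.lam) x).const_mul (P.eta * P.epsc * P.lam)).mul_const
    (kk (y / P.lam))
  refine h.congr_deriv ?_
  field_simp

theorem A_bb_y (P : Par) (hl : P.lam ≠ 0) (x y : ℝ) :
    HasDerivAt (fun t => bb P x t) (bby P x y) y := by
  unfold bb bby
  have h := (A_kk_scale (l := P.lam) y).const_mul (P.eta * P.epsc * P.lam ^ 2 * kk (x / P.lam))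
  refine h.congr_deriv ?_
  field_simp

theorem A_B_pos (P : Par) (h0 : 0 < P.r) (h1 : P.r ≤ 1 / 2) {x : ℝ} (y : ℝ) (hx : |x| < 3 / 2) :
    0 < 1 + P.r ^ 2 * (b0 P x y + bb P x y) := by
  have hx2 : x ^ 2 ≤ 9 / 4 := by
    have h2 := abs_lt.1 hx
    nlinarith
  have he0 : 0 ≤ P.eps := pow_nonneg h0.le _
  have he1 : P.eps ≤ 1 := pow_le_one₀ h0.le (by linarith)
  have hc0 : 0 ≤ P.epsc := pow_nonneg h0.le _
  have ht0 : 0 ≤ P.eta := pow_nonneg h0.le _
  have hbb : 0 ≤ bb P x y := by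
    unfold bb
    have := A_kk_nonneg (x / P.lam)
    have := A_kk_nonneg (y / P.lam)
    positivity
  have hb0 : -(9 / 4) ≤ b0 P x y := by
    unfold b0
    have h3 : 0 ≤ P.epsc * kk y * (x ^ 2 / 2 - x ^ 4 / 12) := by
      have h4 : 0 ≤ x ^ 2 / 2 - x ^ 4 / 12 := by nlinarith [sq_nonneg x, sq_nonneg (x ^ 2)]
      have := A_kk_nonneg y
      positivity
    have h5 : P.eps * chi y * x ^ 2 / 2 ≤ 9 / 4 := by
      have h6 : P.eps * chi y ≤ 2 := by
        have := A_chi_le y
        have := A_chi_nonneg y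
        nlinarith
      have h7 : 0 ≤ P.eps * chi y := mul_nonneg he0 (A_chi_nonneg y)
      nlinarith [sq_nonneg x]
    linarith
  nlinarith [sq_nonneg P.r, mul_pos h0 h0]

end

end P229
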