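import Vale.Agent.P229.A.Darboux

namespace P229

open Set Real Filter Topology
open scoped ContDiff

noncomputable section

/-- `f` is, on the rescaled set, `c * <ν, g> + w`. -/
def ARep (S : Set (ℝ × ℝ)) (r : ℝ) (ν : E3) (g : ℝ × ℝ → E3) (c w : ℝ) (f : ℝ → ℝ → ℝ) : Prop :=
  ∀ x y : ℝ, (r * x, r * y) ∈ S → f x y = c * inner ℝ ν (g (r * x, r * y)) + w

theorem A_rep_dx {S : Set (ℝ × ℝ)} (hS : IsOpen S) {r : ℝ} {ν : E3} {g : ℝ × ℝ → E3} {c w : ℝ}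
    {f : ℝ → ℝ → ℝ} (hg : ContDiffOn ℝ ∞ g S) (h : ARep S r ν g c w f) :
    ARep S r ν (PX g) (c * r) 0 (dx f) := by
  intro x y hq
  have h1 : ∀ᶠ t in 𝓝 x, (r * t, r * y) ∈ S := by
    have hc : Continuous fun t : ℝ => (r * t, r * y) := by fun_prop
    exact hc.continuousAt.preimage_mem_nhds (hS.mem_nhds hq)
  have h2 : (fun t => f t y) =ᶠ[𝓝 x] fun t => c * inner ℝ ν (g (r * t, r * y)) + w := by
    filter_upwards [h1] with t ht
    exact h t y ht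
  have h3 : HasDerivAt (fun t => r * t) r x := by
    simpa using (hasDerivAt_id x).const_mul r
  have h4 : HasDerivAt (fun t => g (r * t, r * y)) (r • PX g (r * x, r * y)) x :=
    (A_lineX (A_diff hS hg hq)).scomp x h3
  have h5 := (((hasDerivAt_const x ν).inner ℝ h4).const_mul c).add_const w
  have h6 : dx f x y = deriv (fun t => c * inner ℝ ν (g (r * t, r * y)) + w) x := h2.deriv_eq
  rw [h6, h5.deriv, inner_smul_right, inner_zero_left]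
  ring

theorem A_rep_dy {S : Set (ℝ × ℝ)} (hS : IsOpen S) {r : ℝ} {ν : E3} {g : ℝ × ℝ → E3} {c w : ℝ}
    {f : ℝ → ℝ → ℝ} (hg : ContDiffOn ℝ ∞ g S) (h : ARep S r ν g c w f) :
    ARep S r ν (PY g) (c * r) 0 (dy f) := by
  intro x y hq
  have h1 : ∀ᶠ t in 𝓝 y, (r * x, r * t) ∈ S := by
    have hc : Continuous fun t : ℝ => (r * x, r * t) := by fun_prop
    exact hc.continuousAt.preimage_mem_nhds (hS.mem_nhds hq)
  have h2 : (fun t => f x t) =ᶠ[𝓝 y] fun t => c * inner ℝ ν (g (r * x, r * t)) + w := by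
    filter_upwards [h1] with t ht
    exact h x t ht
  have h3 : HasDerivAt (fun t => r * t) r y := by
    simpa using (hasDerivAt_id y).const_mul r
  have h4 : HasDerivAt (fun t => g (r * x, r * t)) (r • PY g (r * x, r * y)) y :=
    (A_lineY (A_diff hS hg hq)).scomp y h3
  have h5 := (((hasDerivAt_const y ν).inner ℝ h4).const_mul c).add_const w
  have h6 : dy f x y = deriv (fun t => c * inner ℝ ν (g (r * x, r * t)) + w) y := h2.deriv_eq
  rw [h6, h5.deriv, inner_smul_right, inner_zero_left]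
  ring

/-- `g` is an iterated partial derivative of order `n` of `Φ` on `S`. -/
def AIter (S : Set (ℝ × ℝ)) (Φ : ℝ × ℝ → E3) (n : ℕ) (g : ℝ × ℝ → E3) : Prop :=
  ∃ m : Fin n → ℝ × ℝ, (∀ i, ‖m i‖ ≤ 1) ∧ ∀ q ∈ S, g q = iteratedFDeriv ℝ n Φ q m

theorem AIter.zero (S : Set (ℝ × ℝ)) (Φ : ℝ × ℝ → E3) : AIter S Φ 0 Φ :=
  ⟨fun i => i.elim0, fun i => i.elim0, fun q _ => by simp⟩

theorem AIter.step {S : Set (ℝ × ℝ)} (hS : IsOpen S) {Φ : ℝ × ℝ → E3}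
    (hΦ : ContDiffOn ℝ ∞ Φ S) {n : ℕ} {g : ℝ × ℝ → E3} (h : AIter S Φ n g) (v : ℝ × ℝ)
    (hv : ‖v‖ ≤ 1) : AIter S Φ (n + 1) (fun q => fderiv ℝ g q v) := by
  obtain ⟨m, hm, hg⟩ := h
  refine ⟨Fin.cons v m, ?_, ?_⟩
  · intro i
    refine Fin.cases ?_ ?_ i
    · simpa using hv
    · intro j
      simpa using hm j
  · intro q hq
    have h1 : g =ᶠ[𝓝 q] fun q => iteratedFDeriv ℝ n Φ q m := by
      filter_upwards [hS.mem_nhds hq] with t ht
      exact hg t ht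
    have h2 : DifferentiableAt ℝ (iteratedFDeriv ℝ n Φ) q := by
      have h3 : ContDiffAt ℝ ∞ Φ q := hΦ.contDiffAt (hS.mem_nhds hq)
      exact (h3.iteratedFDeriv_right (m := ∞) (i := n) le_rfl).differentiableAt (by simp)
    have h4 : HasFDerivAt (fun q => iteratedFDeriv ℝ n Φ q m)
        ((ContinuousMultilinearMap.apply ℝ (fun _ : Fin n => ℝ × ℝ) E3 m).comp
          (fderiv ℝ (iteratedFDeriv ℝ n Φ) q)) q :=
      (ContinuousMultilinearMap.apply ℝ (fun _ : Fin n => ℝ × ℝ) E3 m).hasFDerivAt.comp q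
        h2.hasFDerivAt
    show fderiv ℝ g q v = _
    rw [h1.fderiv_eq, h4.fderiv, iteratedFDeriv_succ_apply_left]
    simp

theorem AIter.PX {S : Set (ℝ × ℝ)} (hS : IsOpen S) {Φ : ℝ × ℝ → E3}
    (hΦ : ContDiffOn ℝ ∞ Φ S) {n : ℕ} {g : ℝ × ℝ → E3} (h : AIter S Φ n g) :
    AIter S Φ (n + 1) (PX g) :=
  h.step hS hΦ (1, 0) (by simp [Prod.norm_def])

theorem AIter.PY {S : Set (ℝ × ℝ)} (hS : IsOpen S) {Φ : ℝ × ℝ → E3}
    (hΦ : ContDiffOn ℝ ∞ Φ S) {n : ℕ} {g : ℝ × ℝ → E3} (h : AIter S Φ n g) :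
    AIter S Φ (n + 1) (PY g) :=
  h.step hS hΦ (0, 1) (by simp [Prod.norm_def])

theorem AIter.bound {S : Set (ℝ × ℝ)} {Φ : ℝ × ℝ → E3} {n : ℕ} {g : ℝ × ℝ → E3}
    (h : AIter S Φ n g) {C : ℝ} (hC : ∀ q ∈ S, ‖iteratedFDeriv ℝ n Φ q‖ ≤ C) {q : ℝ × ℝ}
    (hq : q ∈ S) {ν : E3} (hν : ‖ν‖ = 1) : |inner ℝ ν (g q)| ≤ C := by
  obtain ⟨m, hm, hg⟩ := h
  calc |inner ℝ ν (g q)| ≤ ‖ν‖ * ‖g q‖ := abs_real_inner_le_norm _ _
    _ = ‖g q‖ := by rw [hν, one_mul]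
    _ ≤ ‖iteratedFDeriv ℝ n Φ q‖ * ∏ i, ‖m i‖ := by
        rw [hg q hq]
        exact ContinuousMultilinearMap.le_opNorm _ _
    _ ≤ ‖iteratedFDeriv ℝ n Φ q‖ * 1 := by
        refine mul_le_mul_of_nonneg_left ?_ (norm_nonneg _)
        exact Finset.prod_le_one (fun i _ => norm_nonneg _) (fun i _ => hm i)
    _ ≤ C := by rw [mul_one]; exact hC q hq

end

end P229
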